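import Vale.Agent.P110.Main

/-- Ultraflat real Littlewood polynomials exist, one for every length `N`. -/
theorem Vale.Agent.Results.P110.A_ultraflat.result :
    ∃ ε : (N : ℕ) → Fin N → ℤ, (∀ N k, ε N k = 1 ∨ ε N k = -1) ∧
      ∀ c : ℝ, 0 < c → ∃ N₀ : ℕ, ∀ N : ℕ, N₀ ≤ N → ∀ z : ℂ, ‖z‖ = 1 →
        |‖∑ k : Fin N, (ε N k : ℂ) * z ^ (k : ℕ)‖ / Real.sqrt (N : ℝ) - 1| ≤ c :=
  Vale.Agent.P110.ultraflat
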